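import Vale.Agent.Lib.P154.Neg.LP.Base

/-!
The data of a certificate for a restricted range of `theta`, with all its checks.
-/

namespace Vale.Agent.Lib.P154.Neg.B4650

open Vale.Agent.Lib.P154.Neg.Kron Vale.Agent.Lib.P154.Neg Vale.Agent.Lib.P154.Neg.Cst

def tX_1 : CT := (.leaf [130, 6371, 312180] [48, 48, 48])
def tX_4 : CT := (.leaf [170, 8331, 408220] [48, 48, 48])
def tX_6 : CT := (.leaf [171, 8380, 410621] [48, 48, 48])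
def tX_7 : CT := (.s02 (.leaf [202, 9899, 485052] [48, 48, 48]) (.s01 (.leaf [224, 10977, 537874] [48, 48, 48]) (.s12 (.leaf [230, 11271, 552280] [48, 48, 48]) (.s02 (.leaf [255, 12496, 612305] [48, 48, 48]) (.leaf [235, 11516, 564285] [48, 48, 48])))))
def tX_5 : CT := .s12 tX_6 tX_7
def tX_3 : CT := .s01 tX_4 tX_5
def tX_9 : CT := (.leaf [170, 8331, 408220] [48, 48, 48])
def tX_11 : CT := (.leaf [181, 8870, 434631] [48, 48, 48])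
def tX_13 : CT := (.leaf [196, 9605, 470646] [48, 48, 48])
def tX_14 : CT := (.s12 (.leaf [205, 10046, 492255] [48, 48, 48]) (.s02 (.leaf [215, 10536, 516265] [48, 48, 48]) (.s12 (.leaf [222, 10879, 533072] [48, 48, 48]) (.s02 (.leaf [231, 11320, 554681] [48, 48, 48]) (.leaf [212, 10389, 509062] [48, 48, 48])))))
def tX_12 : CT := .s02 tX_13 tX_14
def tX_10 : CT := .s12 tX_11 tX_12
def tX_8 : CT := .s02 tX_9 tX_10
def tX_2 : CT := .s12 tX_3 tX_8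
def tX_0 : CT := .s02 tX_1 tX_2
def tY1_2 : CT := (.leaf [592, 29009, 1421442] [48, 48, 48])
def tY1_3 : CT := (.leaf [609, 29842, 1462259] [48, 48, 48])
def tY1_1 : CT := .s02 tY1_2 tY1_3
def tY1_4 : CT := (.leaf [587, 28764, 1409437] [48, 48, 48])
def tY1_0 : CT := .s02 tY1_1 tY1_4
def tY2_0 : CT := (.leaf [430, 15911, 588708] [36, 36, 36])
def tQ1_0 : BT := (.split 3 (6) (.split 1 (8) (.leaf [426, 9373, 103104, 1649665] [21, 10, 15, 6]) (.split 3 (3) (.leaf [426, 9373, 103104, 1649665] [21, 10, 15, 6]) (.leaf [426, 9373, 103104, 1649665] [21, 10, 15, 6]))) (.leaf [427, 9395, 103346, 1653537] [21, 10, 15, 6]))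
def tQ3_4 : BT := (.leaf [456, 7297, 80268, 1284289] [15, 10, 15, 6])
def tQ3_5 : BT := (.split 1 (4) (.split 0 (1242) (.split 3 (81) (.leaf [457, 7313, 80444, 1287105] [15, 10, 15, 6]) (.split 0 (1045) (.leaf [457, 7313, 80444, 1287105] [15, 10, 15, 6]) (.leaf [458, 7329, 80620, 1289921] [15, 10, 15, 6]))) (.leaf [458, 7329, 80620, 1289921] [15, 10, 15, 6])) (.leaf [458, 7329, 80620, 1289921] [15, 10, 15, 6]))
def tQ3_3 : BT := .split 3 (54) tQ3_4 tQ3_5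
def tQ3_6 : BT := (.leaf [458, 7329, 80620, 1289921] [15, 10, 15, 6])
def tQ3_2 : BT := .split 0 (1636) tQ3_3 tQ3_6
def tQ3_9 : BT := (.leaf [458, 7329, 80620, 1289921] [15, 10, 15, 6])
def tQ3_11 : BT := (.leaf [459, 7345, 80796, 1292737] [15, 10, 15, 6])
def tQ3_13 : BT := (.split 0 (3606) (.leaf [459, 7345, 80796, 1292737] [15, 10, 15, 6]) (.split 3 (81) (.leaf [460, 7361, 80972, 1295553] [15, 10, 15, 6]) (.split 1 (1) (.split 0 (3803) (.leaf [459, 7345, 80796, 1292737] [15, 10, 15, 6]) (.leaf [460, 7361, 80972, 1295553] [15, 10, 15, 6])) (.leaf [460, 7361, 80972, 1295553] [15, 10, 15, 6]))))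
def tQ3_14 : BT := (.leaf [460, 7361, 80972, 1295553] [15, 10, 15, 6])
def tQ3_12 : BT := .split 1 (2) tQ3_13 tQ3_14
def tQ3_10 : BT := .split 3 (54) tQ3_11 tQ3_12
def tQ3_8 : BT := .split 0 (3212) tQ3_9 tQ3_10
def tQ3_15 : BT := (.leaf [460, 7361, 80972, 1295553] [15, 10, 15, 6])
def tQ3_7 : BT := .split 1 (4) tQ3_8 tQ3_15
def tQ3_1 : BT := .split 0 (2424) tQ3_2 tQ3_7
def tQ3_18 : BT := (.split 0 (1636) (.split 3 (54) (.split 3 (27) (.leaf [457, 7313, 80444, 1287105] [15, 10, 15, 6]) (.leaf [457, 7313, 80444, 1287105] [15, 10, 15, 6])) (.leaf [458, 7329, 80620, 1289921] [15, 10, 15, 6])) (.leaf [458, 7329, 80620, 1289921] [15, 10, 15, 6]))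
def tQ3_19 : BT := (.split 3 (54) (.split 0 (1636) (.split 3 (27) (.leaf [457, 7313, 80444, 1287105] [15, 10, 15, 6]) (.leaf [457, 7313, 80444, 1287105] [15, 10, 15, 6])) (.leaf [459, 7345, 80796, 1292737] [15, 10, 15, 6])) (.leaf [458, 7329, 80620, 1289921] [15, 10, 15, 6]))
def tQ3_17 : BT := .split 1 (12) tQ3_18 tQ3_19
def tQ3_20 : BT := (.leaf [461, 7377, 81148, 1298369] [15, 10, 15, 6])
def tQ3_16 : BT := .split 0 (2424) tQ3_17 tQ3_20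
def tQ3_0 : BT := .split 1 (8) tQ3_1 tQ3_16

/-- the data -/
def C : Cst where
  A := ⟨3, 3, 0, 3, 2, 1⟩
  a := (424, 45)
  b := (148, 5)
  c := (156, 5)
  r1 := (3, 4)
  r2 := (11, 12)
  rho1 := (0, 1)
  rho2 := (11, 12)
  g := (9, 25000)
  er := (1, 2)
  kap := (0, 1)
  thm := (27, 400)
  t1 := (23, 50)
  t2 := (93, 200)
  m0 := (293, 600)
  kp0 := (3, 2)
  W := (.add (.add (.add (.add (.add (.add (.add (.mul (.rat (-48749) 1000000) (.pow (.var 1) 2)) (.mul (.rat (1) 2) (.var 0))) (.mul (.mul (.rat (27359) 1000000) (.var 0)) (.var 1))) (.mul (.mul (.rat (2087) 250000) (.var 0)) (.pow (.var 1) 2))) (.mul (.rat (12107) 500000) (.pow (.var 0) 2))) (.mul (.mul (.rat (-6601) 1000000) (.pow (.var 0) 2)) (.var 1))) (.mul (.rat (217) 125000) (.pow (.var 0) 3))) (.mul (.rat (71) 200000) (.pow (.var 0) 4)))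
  V1h := (.add (.add (.add (.add (.add (.add (.add (.add (.mul (.rat (-1) 16) (.var 1)) (.mul (.rat (73723) 10000000) (.pow (.var 1) 2))) (.mul (.rat (1) 8) (.var 0))) (.mul (.mul (.rat (-189639) 10000000) (.var 0)) (.var 1))) (.mul (.mul (.rat (87377) 10000000) (.var 0)) (.pow (.var 1) 2))) (.mul (.rat (17113) 1000000) (.pow (.var 0) 2))) (.mul (.mul (.rat (-17339) 1000000) (.pow (.var 0) 2)) (.var 1))) (.mul (.rat (21489) 10000000) (.pow (.var 0) 3))) (.mul (.rat (1423) 156250) (.pow (.var 0) 4)))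
  V2h := (.add (.add (.add (.add (.mul (.rat (1) 216) (.var 1)) (.mul (.rat (-8083) 10000000) (.pow (.var 1) 2))) (.mul (.mul (.rat (2737) 2000000) (.var 0)) (.var 1))) (.mul (.rat (-593) 1000000) (.pow (.var 0) 2))) (.mul (.rat (-83) 500000) (.pow (.var 0) 3)))
  Xi := (.add (.add (.add (.rat (61) 15) (.mul (.rat (-6475471) 1000000) (.var 0))) (.mul (.rat (6766011) 1000000) (.pow (.var 0) 2))) (.mul (.rat (-480542) 15625) (.pow (.var 0) 3)))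
  Ek := (.rat 0 1)
  Sz := (.add (.add (.add (.add (.mul (.rat (1) 3) (.var 0)) (.mul (.rat (1) 9) (.pow (.var 0) 2))) (.mul (.rat (5) 81) (.pow (.var 0) 3))) (.mul (.rat (10) 243) (.pow (.var 0) 4))) (.mul (.rat (22) 729) (.pow (.var 0) 5)))
  a0 := 500
  b0 := 558
  c0 := 832
  bRho := (0, 53, 250)
  bBeta := (0, 16, 16)
  bT := (92, 93, 200)
  bKap := (0, 12, 8)
  bEps := (0, 1, 1000)
  bSig := (0, 13, 50)
  bNu := (0, 817, 1000)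
  bTh := (0, 108, 1600)
  bZ := (0, 3399057, 4000000)
  tX := tX_0
  tY1 := tY1_0
  tY2 := tY2_0
  tM1 := (.leaf [11, 78, 547] [6, 6, 6])
  tM2 := (.leaf [10, 71, 498] [6, 6, 6])
  tN1 := (.leaf [13, 92, 645] [6, 6, 6])
  tN2 := (.leaf [12, 85, 596] [6, 6, 6])
  tQ1 := tQ1_0
  tQ2 := (.leaf [531, 11683, 186929, 2056220] [21, 15, 10, 15])
  tW := (.leaf [75, 676] [8, 8])
  tK := (.leaf [147, 1030] [6, 5])
  tS1 := (.leaf [105, 526] [4, 4])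
  tS2 := (.leaf [111, 556] [4, 4])
  tC := (.leaf [89, 357, 1429] [3, 3, 4])
  tXi := (.leaf [54, 217] [3, 0])
  tE := (.leaf [1, 2] [0, 0])
  tZ := (.leaf [376] [15])

/-- the further data -/
def X : Ext where
  rho0 := (53, 250)
  bR3 := (848, 4000, 4000)
  bRW := (0, 1, 1)
  tQ3 := tQ3_0

def btQ1_root : List (ℤ × ℤ × ℕ) := [C.bRho, C.bBeta, C.bT, C.bKap]

def btQ3_root : List (ℤ × ℤ × ℕ) := [X.bR3, C.bBeta, C.bT, C.bTh]

def btQ3_0l : List (ℤ × ℤ × ℕ) := btQ3_root.set 1 ((btQ3_root.getD 1 (0, 1, 1)).1, (8), (btQ3_root.getD 1 (0, 1, 1)).2.2)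

def btQ3_0r : List (ℤ × ℤ × ℕ) := btQ3_root.set 1 ((8), (btQ3_root.getD 1 (0, 1, 1)).2.1, (btQ3_root.getD 1 (0, 1, 1)).2.2)

def btQ3_1l : List (ℤ × ℤ × ℕ) := btQ3_0l.set 0 ((btQ3_0l.getD 0 (0, 1, 1)).1, (2424), (btQ3_0l.getD 0 (0, 1, 1)).2.2)

def btQ3_1r : List (ℤ × ℤ × ℕ) := btQ3_0l.set 0 ((2424), (btQ3_0l.getD 0 (0, 1, 1)).2.1, (btQ3_0l.getD 0 (0, 1, 1)).2.2)

def btQ3_2l : List (ℤ × ℤ × ℕ) := btQ3_1l.set 0 ((btQ3_1l.getD 0 (0, 1, 1)).1, (1636), (btQ3_1l.getD 0 (0, 1, 1)).2.2)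

def btQ3_2r : List (ℤ × ℤ × ℕ) := btQ3_1l.set 0 ((1636), (btQ3_1l.getD 0 (0, 1, 1)).2.1, (btQ3_1l.getD 0 (0, 1, 1)).2.2)

def btQ3_3l : List (ℤ × ℤ × ℕ) := btQ3_2l.set 3 ((btQ3_2l.getD 3 (0, 1, 1)).1, (54), (btQ3_2l.getD 3 (0, 1, 1)).2.2)

def btQ3_3r : List (ℤ × ℤ × ℕ) := btQ3_2l.set 3 ((54), (btQ3_2l.getD 3 (0, 1, 1)).2.1, (btQ3_2l.getD 3 (0, 1, 1)).2.2)

def btQ3_7l : List (ℤ × ℤ × ℕ) := btQ3_1r.set 1 ((btQ3_1r.getD 1 (0, 1, 1)).1, (4), (btQ3_1r.getD 1 (0, 1, 1)).2.2)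

def btQ3_7r : List (ℤ × ℤ × ℕ) := btQ3_1r.set 1 ((4), (btQ3_1r.getD 1 (0, 1, 1)).2.1, (btQ3_1r.getD 1 (0, 1, 1)).2.2)

def btQ3_8l : List (ℤ × ℤ × ℕ) := btQ3_7l.set 0 ((btQ3_7l.getD 0 (0, 1, 1)).1, (3212), (btQ3_7l.getD 0 (0, 1, 1)).2.2)

def btQ3_8r : List (ℤ × ℤ × ℕ) := btQ3_7l.set 0 ((3212), (btQ3_7l.getD 0 (0, 1, 1)).2.1, (btQ3_7l.getD 0 (0, 1, 1)).2.2)

def btQ3_10l : List (ℤ × ℤ × ℕ) := btQ3_8r.set 3 ((btQ3_8r.getD 3 (0, 1, 1)).1, (54), (btQ3_8r.getD 3 (0, 1, 1)).2.2)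

def btQ3_10r : List (ℤ × ℤ × ℕ) := btQ3_8r.set 3 ((54), (btQ3_8r.getD 3 (0, 1, 1)).2.1, (btQ3_8r.getD 3 (0, 1, 1)).2.2)

def btQ3_12l : List (ℤ × ℤ × ℕ) := btQ3_10r.set 1 ((btQ3_10r.getD 1 (0, 1, 1)).1, (2), (btQ3_10r.getD 1 (0, 1, 1)).2.2)

def btQ3_12r : List (ℤ × ℤ × ℕ) := btQ3_10r.set 1 ((2), (btQ3_10r.getD 1 (0, 1, 1)).2.1, (btQ3_10r.getD 1 (0, 1, 1)).2.2)

def btQ3_16l : List (ℤ × ℤ × ℕ) := btQ3_0r.set 0 ((btQ3_0r.getD 0 (0, 1, 1)).1, (2424), (btQ3_0r.getD 0 (0, 1, 1)).2.2)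

def btQ3_16r : List (ℤ × ℤ × ℕ) := btQ3_0r.set 0 ((2424), (btQ3_0r.getD 0 (0, 1, 1)).2.1, (btQ3_0r.getD 0 (0, 1, 1)).2.2)

def btQ3_17l : List (ℤ × ℤ × ℕ) := btQ3_16l.set 1 ((btQ3_16l.getD 1 (0, 1, 1)).1, (12), (btQ3_16l.getD 1 (0, 1, 1)).2.2)

def btQ3_17r : List (ℤ × ℤ × ℕ) := btQ3_16l.set 1 ((12), (btQ3_16l.getD 1 (0, 1, 1)).2.1, (btQ3_16l.getD 1 (0, 1, 1)).2.2)

end Vale.Agent.Lib.P154.Neg.B4650
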